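import Vale.Agent.P255.Bdl.B1

set_option linter.all false

/-!
# P255: semisimple isometric actions on spaces with the Bruhat-Tits inequality
(the lemmas of the closure without properness and cocompactness)
-/

namespace Vale.Agent.P255.H35

open Vale.Agent.P255
open Filter Topology

/-- `Γ` acts on `X` by isometries of the pseudometric `d`, midpoints satisfy the Bruhat-Tits
inequality and every displacement function attains its minimum. -/
structure SSAct (Γ X : Type*) [Group Γ] [MulAction Γ X] (d : X → X → ℝ) : Prop where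
  nonneg : ∀ x y, 0 ≤ d x y
  self : ∀ x, d x x = 0
  symm : ∀ x y, d x y = d y x
  tri : ∀ x y z, d x z ≤ d x y + d y z
  inv : ∀ (g : Γ) (x y : X), d (g • x) (g • y) = d x y
  cn : ∀ y z : X, ∃ m : X, ∀ x : X,
    d x m ^ 2 ≤ (d x y ^ 2 + d x z ^ 2) / 2 - d y z ^ 2 / 4
  min : ∀ g : Γ, ∃ x₀ : X, ∀ x : X, d x₀ (g • x₀) ≤ d x (g • x)

variable {Γ X : Type*} [Group Γ] [MulAction Γ X] {d : X → X → ℝ}

namespace SSAct

/-- The quadrilateral inequality. -/
lemma quad (h : SSAct Γ X d) (p q r s : X) :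
    d p r ^ 2 + d q s ^ 2 ≤ d p q ^ 2 + d q r ^ 2 + d r s ^ 2 + d s p ^ 2 := by
  obtain ⟨m, hm⟩ := h.cn q s
  have h1 := hm p
  have h2 := hm r
  have h3 := h.tri p m r
  have h4 := h.symm m r
  have h5 := h.nonneg p m
  have h6 := h.nonneg r m
  have h7 := h.nonneg p r
  have h8 : d p r ^ 2 ≤ (d p m + d r m) ^ 2 := by
    rw [h4] at h3
    exact pow_le_pow_left₀ h7 h3 2
  have h9 : (d p m + d r m) ^ 2 ≤ 2 * d p m ^ 2 + 2 * d r m ^ 2 := by
    linarith only [sq_nonneg (d p m - d r m)]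
  rw [h.symm q r, h.symm s p]
  linarith only [h9, h8, h2, h1]

/-- Moving to a midpoint of `x` and `g x` at least halves the displacement of `g ^ 2`. -/
lemma exists_half (h : SSAct Γ X d) (g : Γ) (x : X) :
    ∃ m : X, 2 * d m (g • m) ≤ d x ((g ^ 2) • x) := by
  obtain ⟨m, hm⟩ := h.cn x (g • x)
  refine ⟨m, ?_⟩
  have e1 : (g ^ 2) • x = g • g • x := by rw [pow_two, mul_smul]
  have h1 := hm (g⁻¹ • m)
  have a1 : d (g⁻¹ • m) m = d m (g • m) := by
    rw [← h.inv g (g⁻¹ • m) m, smul_inv_smul]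
  have a2 : d (g⁻¹ • m) x = d m (g • x) := by
    rw [← h.inv g (g⁻¹ • m) x, smul_inv_smul]
  have a3 : d (g⁻¹ • m) (g • x) = d m (g • g • x) := by
    rw [← h.inv g (g⁻¹ • m) (g • x), smul_inv_smul]
  rw [a1, a2, a3] at h1
  have h2 := hm (g • x)
  rw [h.self (g • x)] at h2
  have h3 := hm (g • g • x)
  rw [h.inv g (g • x) x] at h3
  rw [h.symm m (g • x), h.symm m (g • g • x)] at h1
  rw [h.symm (g • x) x] at h2 h3
  rw [e1, h.symm x (g • g • x)]
  have h4 : (2 * d m (g • m)) ^ 2 ≤ d (g • g • x) x ^ 2 := by linarith only [h3, h2, h1]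
  exact abs_le_of_sq_le_sq' h4 (h.nonneg _ _) |>.2

lemma bdd (h : SSAct Γ X d) (g : Γ) : BddBelow (Set.range fun x : X => d x (g • x)) :=
  ⟨0, by rintro _ ⟨x, rfl⟩; exact h.nonneg _ _⟩

lemma tau_le (h : SSAct Γ X d) (g : Γ) (x : X) : tau d g ≤ d x (g • x) :=
  ciInf_le (h.bdd g) x

lemma tau_nonneg (h : SSAct Γ X d) (g : Γ) : 0 ≤ tau d g :=
  Real.iInf_nonneg fun _ => h.nonneg _ _

/-- The displacement of `g` attains its minimum. -/
lemma exists_min (h : SSAct Γ X d) [Nonempty X] (g : Γ) :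
    ∃ x₀ : X, d x₀ (g • x₀) = tau d g := by
  obtain ⟨x₀, hx⟩ := h.min g
  exact ⟨x₀, le_antisymm (le_ciInf hx) (h.tau_le g x₀)⟩

lemma pow_le (h : SSAct Γ X d) (g : Γ) (x : X) (n : ℕ) :
    d x ((g ^ n) • x) ≤ n * d x (g • x) := by
  induction n with
  | zero => simp [h.self]
  | succ n ih =>
    have h1 := h.tri x ((g ^ n) • x) ((g ^ (n + 1)) • x)
    have h2 : d ((g ^ n) • x) ((g ^ (n + 1)) • x) = d x (g • x) := by
      rw [pow_succ, mul_smul, h.inv]
    rw [h2] at h1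
    push_cast
    linarith

lemma two_pow_le (h : SSAct Γ X d) (k : ℕ) (g : Γ) (c : ℝ) (hc : ∀ x : X, c ≤ d x (g • x))
    (x : X) : 2 ^ k * c ≤ d x ((g ^ (2 ^ k)) • x) := by
  induction k generalizing x with
  | zero => simpa using hc x
  | succ k ih =>
    obtain ⟨m, hm⟩ := h.exists_half (g ^ (2 ^ k)) x
    have h1 := ih m
    rw [← pow_mul, ← pow_succ] at hm
    have : (2 : ℝ) ^ (k + 1) * c = 2 * (2 ^ k * c) := by ring
    rw [this]
    linarith

/-- Along a point of minimal displacement the orbit is linear. -/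
lemma min_pow (h : SSAct Γ X d) (g : Γ) (x₀ : X) (h0 : d x₀ (g • x₀) = tau d g) (n : ℕ) :
    d x₀ ((g ^ n) • x₀) = n * tau d g := by
  apply le_antisymm
  · have := h.pow_le g x₀ n
    rwa [h0] at this
  · have hn : n ≤ 2 ^ n := Nat.lt_two_pow_self.le
    have h1 := h.two_pow_le n g (tau d g) (h.tau_le g) x₀
    have h2 := h.tri x₀ ((g ^ n) • x₀) ((g ^ (2 ^ n)) • x₀)
    have h3 : d ((g ^ n) • x₀) ((g ^ (2 ^ n)) • x₀) = d x₀ ((g ^ (2 ^ n - n)) • x₀) := by
      have : g ^ (2 ^ n) = g ^ n * g ^ (2 ^ n - n) := by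
        rw [← pow_add]; congr 1; omega
      rw [this, mul_smul, h.inv]
    have h4 := h.pow_le g x₀ (2 ^ n - n)
    rw [h0, Nat.cast_sub hn] at h4
    push_cast at h4
    rw [h3] at h2
    linarith only [h4, h2, h1]

/-- Displacements of powers grow linearly with slope `tau`, up to a bounded error. -/
lemma pow_bound (h : SSAct Γ X d) [Nonempty X] (g : Γ) (x y : X) :
    ∃ C : ℝ, 0 ≤ C ∧ ∀ n : ℕ, |d x ((g ^ n) • y) - n * tau d g| ≤ C := by
  obtain ⟨x₀, h0⟩ := h.exists_min g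
  refine ⟨d x x₀ + d y x₀, add_nonneg (h.nonneg _ _) (h.nonneg _ _), fun n => ?_⟩
  have h1 := h.min_pow g x₀ h0 n
  have h2 := h.tri x x₀ ((g ^ n) • y)
  have h3 := h.tri x₀ ((g ^ n) • x₀) ((g ^ n) • y)
  have h4 := h.tri x₀ x ((g ^ n) • x₀)
  have h5 := h.tri x ((g ^ n) • y) ((g ^ n) • x₀)
  rw [h.inv] at h3 h5
  rw [h.symm x₀ y] at h3
  rw [h.symm x₀ x] at h4
  rw [abs_le]
  constructor <;> linarith

lemma tendsto_div (h : SSAct Γ X d) [Nonempty X] (g : Γ) (x : X) :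
    Tendsto (fun n : ℕ => d x ((g ^ n) • x) / n) atTop (𝓝 (tau d g)) := by
  obtain ⟨C, hC0, hC⟩ := h.pow_bound g x x
  have h1 : Tendsto (fun n : ℕ => C / (n : ℝ)) atTop (𝓝 0) :=
    tendsto_const_div_atTop_nhds_zero_nat C
  rw [tendsto_iff_norm_sub_tendsto_zero]
  refine squeeze_zero' (Eventually.of_forall fun _ => norm_nonneg _) ?_ h1
  filter_upwards [eventually_gt_atTop 0] with n hn
  have hn' : (0 : ℝ) < n := by exact_mod_cast hn
  rw [Real.norm_eq_abs, le_div_iff₀ hn', ← abs_of_pos hn', ← abs_mul, abs_of_pos hn']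
  have : (d x ((g ^ n) • x) / n - tau d g) * n = d x ((g ^ n) • x) - n * tau d g := by
    field_simp
  rw [this]
  exact hC n

lemma tau_inv (h : SSAct Γ X d) (g : Γ) : tau d g⁻¹ = tau d g := by
  unfold tau
  have key : ∀ x : X, d x (g⁻¹ • x) = d x (g • x) := by
    intro x
    rw [← h.inv g x, smul_inv_smul, h.symm]
  exact congrArg _ (funext key)

lemma tau_sq (h : SSAct Γ X d) [Nonempty X] (g : Γ) : tau d (g ^ 2) = 2 * tau d g := by
  obtain ⟨x₀, h0⟩ := h.exists_min g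
  have h1 := h.tendsto_div (g ^ 2) x₀
  have h2 := h.tendsto_div g x₀
  have h3 : Tendsto (fun n : ℕ => 2 * n) atTop atTop :=
    tendsto_id.const_mul_atTop' (by norm_num)
  have h4 := (h2.comp h3).const_mul 2
  refine tendsto_nhds_unique h1 (h4.congr' ?_)
  filter_upwards [eventually_gt_atTop 0] with n hn
  have hn' : (0 : ℝ) < n := by exact_mod_cast hn
  simp only [Function.comp]
  rw [pow_mul]
  push_cast
  field_simp

lemma par_le (h : SSAct Γ X d) [Nonempty X] {u v : Γ} (huv : Commute u v) :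
    tau d (u * v) ^ 2 + tau d (u * v⁻¹) ^ 2 ≤ 2 * tau d u ^ 2 + 2 * tau d v ^ 2 := by
  obtain ⟨x⟩ := ‹Nonempty X›
  have t1 := (h.tendsto_div (u * v) x).pow 2
  have t2 := (h.tendsto_div (u * v⁻¹) x).pow 2
  have t3 := ((h.tendsto_div u x).pow 2).const_mul 2
  have t4 := ((h.tendsto_div v x).pow 2).const_mul 2
  refine le_of_tendsto_of_tendsto (t1.add t2) (t3.add t4) ?_
  filter_upwards [eventually_gt_atTop 0] with n hn
  have hn' : (0 : ℝ) < n := by exact_mod_cast hn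
  have hq := h.quad x ((u ^ n) • x) ((u * v) ^ n • x) ((v ^ n) • x)
  have e1 : d ((u ^ n) • x) ((v ^ n) • x) = d x (((u * v⁻¹) ^ n) • x) := by
    rw [huv.inv_right.mul_pow, (huv.inv_right.pow_pow n n).eq, mul_smul, inv_pow,
      ← h.inv (v ^ n) x, smul_inv_smul, h.symm]
  have e2 : d ((u ^ n) • x) ((u * v) ^ n • x) = d x ((v ^ n) • x) := by
    rw [huv.mul_pow, mul_smul, h.inv]
  have e3 : d ((u * v) ^ n • x) ((v ^ n) • x) = d x ((u ^ n) • x) := by
    rw [huv.mul_pow, (huv.pow_pow n n).eq, mul_smul, h.inv, h.symm]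
  rw [e1, e2, e3, h.symm ((v ^ n) • x) x] at hq
  have : ∀ a : ℝ, (a / n) ^ 2 = a ^ 2 / (n : ℝ) ^ 2 := fun a => div_pow _ _ _
  simp only [this]
  rw [← add_div, ← mul_div_assoc, ← mul_div_assoc, ← add_div]
  apply div_le_div_of_nonneg_right _ (by positivity)
  linarith only [hq]

lemma par_eq (h : SSAct Γ X d) [Nonempty X] {u v : Γ} (huv : Commute u v) :
    tau d (u * v) ^ 2 + tau d (u * v⁻¹) ^ 2 = 2 * tau d u ^ 2 + 2 * tau d v ^ 2 := by
  apply le_antisymm (h.par_le huv)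
  have hc : Commute (u * v) (u * v⁻¹) := by
    have h1 : Commute u (u * v⁻¹) := (Commute.refl u).mul_right huv.inv_right
    have h2 : Commute v (u * v⁻¹) := huv.symm.mul_right (Commute.refl v).inv_right
    exact h1.mul_left h2
  have h1 := h.par_le hc
  have e1 : (u * v) * (u * v⁻¹) = u ^ 2 := by
    rw [pow_two, mul_assoc u v, ← mul_assoc v u, huv.symm.eq, mul_assoc u v,
      mul_inv_cancel, mul_one]
  have e2 : (u * v) * (u * v⁻¹)⁻¹ = v ^ 2 := by
    rw [mul_inv_rev, inv_inv, mul_assoc, ← mul_assoc v v, ← pow_two,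
      (huv.symm.pow_left 2).inv_right.eq, mul_inv_cancel_left]
  rw [e1, e2, h.tau_sq, h.tau_sq] at h1
  linarith only [h1]

/-- The polarization of `tau ^ 2`. -/
lemma tau_pow_mul (h : SSAct Γ X d) [Nonempty X] {u c : Γ} (huc : Commute u c) (n : ℕ) :
    tau d (u ^ n * c) ^ 2 = n ^ 2 * tau d u ^ 2 +
      n * (tau d (u * c) ^ 2 - tau d u ^ 2 - tau d c ^ 2) + tau d c ^ 2 := by
  induction n using Nat.strong_induction_on with
  | _ n ih =>
    match n, ih with
    | 0, _ => simp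
    | 1, _ => simp only [pow_one, Nat.cast_one]; ring
    | n + 2, ih =>
      have h1 := ih n (by omega)
      have h2 := ih (n + 1) (by omega)
      have hc : Commute (u ^ (n + 1) * c) u :=
        ((Commute.refl u).pow_left (n + 1)).mul_left huc.symm
      have h3 := h.par_eq hc
      have e1 : u ^ (n + 1) * c * u = u ^ (n + 2) * c := by
        rw [hc.eq, ← mul_assoc, ← pow_succ']
      have e2 : u ^ (n + 1) * c * u⁻¹ = u ^ n * c := by
        rw [hc.inv_right.eq, ← mul_assoc, pow_succ' u n, inv_mul_cancel_left]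
      rw [e1, e2] at h3
      push_cast at h2 ⊢
      nlinarith

/-- Asymptotic rays in the direction of `g` have the same Busemann function. -/
lemma tendsto_cross (h : SSAct Γ X d) [Nonempty X] {g : Γ} (hg : 0 < tau d g)
    (y y' x x' : X) :
    Tendsto (fun n : ℕ => (d y ((g ^ n) • x) - d y ((g ^ n) • x')) -
      (d y' ((g ^ n) • x) - d y' ((g ^ n) • x'))) atTop (𝓝 0) := by
  obtain ⟨C1, hC10, hC1⟩ := h.pow_bound g y x
  set K : ℝ := d y y' ^ 2 + d x x' ^ 2 + 2 * d x x' * d y y' with hK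
  have hlin : Tendsto (fun n : ℕ => n * tau d g - C1) atTop atTop := by
    apply tendsto_atTop_add_const_right
    exact tendsto_natCast_atTop_atTop.atTop_mul_const hg
  have hz : Tendsto (fun n : ℕ => K / (n * tau d g - C1)) atTop (𝓝 0) :=
    hlin.const_div_atTop K
  rw [tendsto_zero_iff_norm_tendsto_zero]
  refine squeeze_zero' (Eventually.of_forall fun _ => norm_nonneg _) ?_ hz
  filter_upwards [hlin.eventually_gt_atTop 0] with n hn
  rw [Real.norm_eq_abs, le_div_iff₀ hn]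
  set p := d y ((g ^ n) • x)
  set q := d y ((g ^ n) • x')
  set r := d y' ((g ^ n) • x)
  set s := d y' ((g ^ n) • x')
  have hp0 : 0 ≤ p := h.nonneg _ _
  have hq0 : 0 ≤ q := h.nonneg _ _
  have hr0 : 0 ≤ r := h.nonneg _ _
  have hs0 : 0 ≤ s := h.nonneg _ _
  have hxx0 : 0 ≤ d x x' := h.nonneg _ _
  have hyy0 : 0 ≤ d y y' := h.nonneg _ _
  have hp : n * tau d g - C1 ≤ p := by
    have := (abs_le.1 (hC1 n)).1
    linarith
  -- quadrilateral inequalities
  have q1 := h.quad y y' ((g ^ n) • x) ((g ^ n) • x')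
  have q2 := h.quad y y' ((g ^ n) • x') ((g ^ n) • x)
  rw [h.inv] at q1 q2
  rw [h.symm ((g ^ n) • x') y] at q1
  rw [h.symm ((g ^ n) • x) y, h.symm x' x] at q2
  change p ^ 2 + s ^ 2 ≤ d y y' ^ 2 + r ^ 2 + d x x' ^ 2 + q ^ 2 at q1
  change q ^ 2 + r ^ 2 ≤ d y y' ^ 2 + s ^ 2 + d x x' ^ 2 + p ^ 2 at q2
  -- bounded differences
  have b1 : |r - s| ≤ d x x' := by
    have t1 := h.tri y' ((g ^ n) • x) ((g ^ n) • x')
    have t2 := h.tri y' ((g ^ n) • x') ((g ^ n) • x)
    rw [h.inv] at t1 t2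
    rw [h.symm x' x] at t2
    rw [abs_le]; constructor <;> linarith
  have b2 : |p - r| ≤ d y y' := by
    have t1 := h.tri y y' ((g ^ n) • x)
    have t2 := h.tri y' y ((g ^ n) • x)
    rw [h.symm y' y] at t2
    rw [abs_le]; constructor <;> linarith
  have b3 : |q - s| ≤ d y y' := by
    have t1 := h.tri y y' ((g ^ n) • x')
    have t2 := h.tri y' y ((g ^ n) • x')
    rw [h.symm y' y] at t2
    rw [abs_le]; constructor <;> linarith
  have key : (p - q - (r - s)) * (p + q) =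
      (p ^ 2 + s ^ 2 - q ^ 2 - r ^ 2) - (r - s) * ((p - r) + (q - s)) := by ring
  have b4 : |(r - s) * ((p - r) + (q - s))| ≤ d x x' * (2 * d y y') := by
    rw [abs_mul]
    have : |p - r + (q - s)| ≤ 2 * d y y' := by
      calc |p - r + (q - s)| ≤ |p - r| + |q - s| := abs_add_le _ _
        _ ≤ 2 * d y y' := by linarith
    exact mul_le_mul b1 this (abs_nonneg _) hxx0
  have b5 : |p ^ 2 + s ^ 2 - q ^ 2 - r ^ 2| ≤ d y y' ^ 2 + d x x' ^ 2 := by
    rw [abs_le]; constructor <;> linarith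
  have b6 : |(p - q - (r - s)) * (p + q)| ≤ K := by
    rw [key]
    calc |(p ^ 2 + s ^ 2 - q ^ 2 - r ^ 2) - (r - s) * ((p - r) + (q - s))|
        ≤ |p ^ 2 + s ^ 2 - q ^ 2 - r ^ 2| + |(r - s) * ((p - r) + (q - s))| := abs_sub _ _
      _ ≤ K := by rw [hK]; linarith
  rw [abs_mul, abs_of_nonneg (by linarith : 0 ≤ p + q)] at b6
  calc |p - q - (r - s)| * (n * tau d g - C1) ≤ |p - q - (r - s)| * (p + q) :=
        mul_le_mul_of_nonneg_left (by linarith) (abs_nonneg _)
    _ ≤ K := b6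

/-- The Busemann quasi-cocycle of the centralizer of `g`. -/
lemma tendsto_add (h : SSAct Γ X d) [Nonempty X] {g : Γ} (hg : 0 < tau d g) (x : X)
    {u : Γ} (v : Γ) (hu : Commute g u) :
    Tendsto (fun n : ℕ => (d x ((g ^ n) • (u * v) • x) - d x ((g ^ n) • x)) -
      (d x ((g ^ n) • u • x) - d x ((g ^ n) • x)) -
      (d x ((g ^ n) • v • x) - d x ((g ^ n) • x))) atTop (𝓝 0) := by
  have h1 := h.tendsto_cross hg (u⁻¹ • x) x (v • x) x
  refine h1.congr fun n => ?_
  have e : ∀ z : X, d x ((g ^ n) • u • z) = d (u⁻¹ • x) ((g ^ n) • z) := by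
    intro z
    rw [← h.inv u (u⁻¹ • x), smul_inv_smul, smul_smul, smul_smul, (hu.pow_left n).eq]
  rw [mul_smul, e, e]
  ring

end SSAct

/-- a proper and cocompact action is semisimple -/
lemma ss_of_cn (h : CNAct Γ X d) [Nonempty X] : SSAct Γ X d where
  nonneg := h.nonneg
  self := h.self
  symm := h.symm
  tri := h.tri
  inv := h.inv
  cn := h.cn
  min g := by
    obtain ⟨x₀, h0⟩ := h.exists_min g
    exact ⟨x₀, fun x => h0.le.trans (h.tau_le g x)⟩

end Vale.Agent.P255.H35
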