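import Vale.Agent.P255.H35.SS
import Mathlib.GroupTheory.Transfer

set_option linter.all false

/-!
# P255: a finite-index subgroup of the group of the graph manifold does not embed in a group
acting properly and cocompactly on a space satisfying the Bruhat-Tits inequality
-/

open Filter Topology

namespace Vale.Agent.P255.H35.S

open Vale.Agent.P255 Vale.Agent.P255.H35

section Pairing

variable {Γ X : Type*} [Group Γ] [MulAction Γ X] {d : X → X → ℝ}

/-- polarisation of the squared translation length -/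
noncomputable def Qf (d : X → X → ℝ) (g c : Γ) : ℝ := tau d (g * c) ^ 2 - tau d g ^ 2 - tau d c ^ 2

lemma Qf_inv (h : SSAct Γ X d) [Nonempty X] {g c : Γ} (hc : Commute g c) :
    Qf d g c⁻¹ = - Qf d g c := by
  have h1 := h.par_eq hc
  unfold Qf
  rw [h.tau_inv c]
  linarith

lemma Qf_comm {g c : Γ} (hc : Commute g c) : Qf d g c = Qf d c g := by
  unfold Qf
  rw [hc.eq]; ring

lemma Qf_self (h : SSAct Γ X d) [Nonempty X] (g : Γ) : Qf d g g = 2 * tau d g ^ 2 := by
  unfold Qf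
  rw [← pow_two, h.tau_sq]; ring

/-- translation lengths are invariant under conjugation -/
lemma tau_conj (h : SSAct Γ X d) (s g : Γ) : tau d (s * g * s⁻¹) = tau d g := by
  unfold tau
  have e : ∀ x : X, d x ((s * g * s⁻¹) • x) = d (s⁻¹ • x) (g • (s⁻¹ • x)) := by
    intro x
    rw [← h.inv s (s⁻¹ • x), smul_inv_smul]
    simp only [mul_smul]
  simp only [e]
  exact (MulAction.bijective (s⁻¹ : Γ) (α := Γ) (β := X)).surjective.iInf_comp
    (fun y : X => d y (g • y))

lemma Qf_conj (h : SSAct Γ X d) (s g c : Γ) :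
    Qf d (s * g * s⁻¹) (s * c * s⁻¹) = Qf d g c := by
  unfold Qf
  have e : s * g * s⁻¹ * (s * c * s⁻¹) = s * (g * c) * s⁻¹ := by group
  rw [e, tau_conj h, tau_conj h, tau_conj h]

lemma Qf_zero (h : SSAct Γ X d) [Nonempty X] {g c : Γ} (hg : tau d g = 0) (hc : Commute g c) :
    Qf d g c = 0 := by
  have nn : ∀ {e : Γ}, Commute g e → 0 ≤ Qf d g e := by
    intro e he
    by_contra hlt
    push Not at hlt
    obtain ⟨n, hn⟩ := exists_nat_gt (tau d e ^ 2 / (-(Qf d g e)))
    have h3 := h.tau_pow_mul he n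
    have h4 : tau d (g * e) ^ 2 - tau d g ^ 2 - tau d e ^ 2 = Qf d g e := rfl
    rw [h4, hg] at h3
    rw [div_lt_iff₀ (by linarith only [hlt])] at hn
    linarith only [sq_nonneg (tau d (g ^ n * e)), h3, hn]
  have n1 := nn hc
  have n2 := nn hc.inv_right
  rw [Qf_inv h hc] at n2
  linarith

/-- lower bound for the Busemann function in terms of the pairing -/
lemma le_cross (h : SSAct Γ X d) [Nonempty X] {g c : Γ} (hc : Commute g c)
    {x₀ : X} (h0 : d x₀ (g • x₀) = tau d g) {n : ℕ} (hn : 0 < n) :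
    Qf d g c - d x₀ (c • x₀) ^ 2 / n ≤
      2 * tau d g * (d x₀ ((g ^ n) • c • x₀) - d x₀ ((g ^ n) • x₀)) := by
  have hn' : (0 : ℝ) < n := by exact_mod_cast hn
  set B := d x₀ ((g ^ n) • c • x₀) - d x₀ ((g ^ n) • x₀) with hB
  have h1 := h.tau_le (g ^ n * c) x₀
  have h2 := h.min_pow g x₀ h0 n
  have h3 := h.tau_pow_mul hc n
  rw [mul_smul] at h1
  have h4 : tau d (g ^ n * c) ≤ n * tau d g + B := by rw [hB, h2]; linarith
  have h5 : tau d (g ^ n * c) ^ 2 ≤ (n * tau d g + B) ^ 2 :=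
    pow_le_pow_left₀ (h.tau_nonneg _) h4 2
  have h4' : tau d (g * c) ^ 2 - tau d g ^ 2 - tau d c ^ 2 = Qf d g c := rfl
  rw [h3, h4'] at h5
  have hBD : |B| ≤ d x₀ (c • x₀) := by
    have t1 := h.tri x₀ ((g ^ n) • x₀) ((g ^ n) • c • x₀)
    have t2 := h.tri x₀ ((g ^ n) • c • x₀) ((g ^ n) • x₀)
    rw [h.inv] at t1 t2
    rw [h.symm (c • x₀) x₀] at t2
    rw [abs_le]; constructor <;> linarith
  have hB2 : B ^ 2 ≤ d x₀ (c • x₀) ^ 2 := by
    rw [← sq_abs B]; exact pow_le_pow_left₀ (abs_nonneg _) hBD 2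
  have h6 : (n : ℝ) * Qf d g c ≤ n * (2 * tau d g * B) + d x₀ (c • x₀) ^ 2 := by
    linarith only [sq_nonneg (tau d c), h5, hB2]
  have h7 : (n : ℝ) * (Qf d g c - d x₀ (c • x₀) ^ 2 / n) ≤ n * (2 * tau d g * B) := by
    rw [mul_sub, mul_div_cancel₀ _ hn'.ne']; linarith
  exact le_of_mul_le_mul_left h7 hn'

/-- one half of additivity -/
lemma Qf_mul_le (h : SSAct Γ X d) [Nonempty X] {g u v : Γ} (hg : 0 < tau d g)
    (hu : Commute g u) (hv : Commute g v) : Qf d g (u * v) ≤ Qf d g u + Qf d g v := by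
  obtain ⟨x₀, h0⟩ := h.exists_min g
  set B : Γ → ℕ → ℝ := fun c n => d x₀ ((g ^ n) • c • x₀) - d x₀ ((g ^ n) • x₀) with hB
  have hadd : ∀ a b : Γ, Commute g a →
      Tendsto (fun n => B (a * b) n - B a n - B b n) atTop (𝓝 0) := fun a b ha =>
    h.tendsto_add hg x₀ b ha
  have hone : ∀ n, B 1 n = 0 := fun n => by simp [hB]
  have t1 := hadd u v hu
  have t2 := hadd u u⁻¹ hu
  have t3 := hadd v v⁻¹ hv
  simp only [mul_inv_cancel, hone] at t2 t3
  have t4 : Tendsto (fun n => B (u * v) n + B u⁻¹ n + B v⁻¹ n) atTop (𝓝 0) := by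
    have := (t1.sub t2).sub t3
    simp only [sub_zero] at this
    refine this.congr fun n => ?_
    ring
  have t5 : Tendsto (fun n => 2 * tau d g * (B (u * v) n + B u⁻¹ n + B v⁻¹ n) +
      (d x₀ ((u * v) • x₀) ^ 2 / (n : ℝ) + d x₀ (u⁻¹ • x₀) ^ 2 / (n : ℝ) +
        d x₀ (v⁻¹ • x₀) ^ 2 / (n : ℝ))) atTop (𝓝 0) := by
    have := (t4.const_mul (2 * tau d g)).add
      (((tendsto_const_div_atTop_nhds_zero_nat (d x₀ ((u * v) • x₀) ^ 2)).add
      (tendsto_const_div_atTop_nhds_zero_nat (d x₀ (u⁻¹ • x₀) ^ 2))).add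
      (tendsto_const_div_atTop_nhds_zero_nat (d x₀ (v⁻¹ • x₀) ^ 2)))
    simpa using this
  have key : Qf d g (u * v) + Qf d g u⁻¹ + Qf d g v⁻¹ ≤ 0 := by
    refine ge_of_tendsto t5 ?_
    filter_upwards [eventually_gt_atTop 0] with n hn
    have k1 := le_cross h (hu.mul_right hv) h0 hn
    have k2 := le_cross h hu.inv_right h0 hn
    have k3 := le_cross h hv.inv_right h0 hn
    simp only [hB]
    linarith
  rw [Qf_inv h hu, Qf_inv h hv] at key
  linarith

/-- **additivity of the pairing on centralisers** -/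
lemma Qf_mul (h : SSAct Γ X d) [Nonempty X] {g u v : Γ}
    (hu : Commute g u) (hv : Commute g v) : Qf d g (u * v) = Qf d g u + Qf d g v := by
  rcases (h.tau_nonneg g).eq_or_lt with h0 | h0
  · rw [Qf_zero h h0.symm (hu.mul_right hv), Qf_zero h h0.symm hu, Qf_zero h h0.symm hv, add_zero]
  · apply le_antisymm (Qf_mul_le h h0 hu hv)
    have h1 := Qf_mul_le h h0 hv.inv_right hu.inv_right
    rw [← mul_inv_rev, Qf_inv h (hu.mul_right hv), Qf_inv h hv, Qf_inv h hu] at h1
    linarith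

end Pairing

section Transfer

open scoped Classical in
/-- An additive function on a normal subgroup of finite index which is invariant under conjugation
by the whole group vanishes on the powers of commutators. -/
lemma transfer_aux {G : Type*} [Group G] (K : Subgroup G) [K.Normal] [K.FiniteIndex] (β : G → ℝ)
    (hβ : ∀ u v, u ∈ K → v ∈ K → β (u * v) = β u + β v)
    (hinv : ∀ s u, u ∈ K → β (s * u * s⁻¹) = β u) (a b : G) {n : ℕ} 
    (hn : (a * b * a⁻¹ * b⁻¹) ^ n ∈ K) : β ((a * b * a⁻¹ * b⁻¹) ^ n) = 0 := by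
  have : Fintype (G ⧸ K) := Fintype.ofFinite _
  -- the transfer
  set F : G → ℝ := fun x => ∑ q : G ⧸ K, β ((x • q).out⁻¹ * x * q.out) with hF
  have hmem : ∀ (x : G) (q : G ⧸ K), (x • q).out⁻¹ * x * q.out ∈ K := by
    intro x q
    have h1 : ((x • q).out : G ⧸ K) = ((x * q.out : G) : G ⧸ K) := by
      rw [QuotientGroup.out_eq']
      conv_lhs => rw [← QuotientGroup.out_eq' q]
      rfl
    have h2 := QuotientGroup.eq.1 h1
    rwa [← mul_assoc] at h2
  have hmul : ∀ x y, F (x * y) = F x + F y := by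
    intro x y
    have h1 : ∀ q : G ⧸ K, β (((x * y) • q).out⁻¹ * (x * y) * q.out) =
        β ((x • (y • q)).out⁻¹ * x * (y • q).out) + β ((y • q).out⁻¹ * y * q.out) := by
      intro q
      rw [← hβ _ _ (hmem x (y • q)) (hmem y q), ← mul_smul]
      congr 1
      group
    simp only [hF]
    rw [Finset.sum_congr rfl (fun q _ => h1 q), Finset.sum_add_distrib]
    congr 1
    exact Equiv.sum_comp (MulAction.toPerm y) (fun q : G ⧸ K => β ((x • q).out⁻¹ * x * q.out))
  have hone : F 1 = 0 := by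
    have := hmul 1 1
    rw [mul_one] at this
    linarith
  have hinv' : ∀ x, F x⁻¹ = - F x := by
    intro x
    have := hmul x x⁻¹
    rw [mul_inv_cancel, hone] at this
    linarith
  have hpow : ∀ x (m : ℕ), F (x ^ m) = m * F x := by
    intro x m
    induction m with
    | zero => simp [hone]
    | succ m ih => rw [pow_succ, hmul, ih]; push_cast; ring
  have hK : ∀ u ∈ K, F u = Fintype.card (G ⧸ K) * β u := by
    intro u hu
    have h1 : ∀ q : G ⧸ K, β ((u • q).out⁻¹ * u * q.out) = β u := by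
      intro q
      have h2 : u • q = q := by
        conv_lhs => rw [← QuotientGroup.out_eq' q]
        conv_rhs => rw [← QuotientGroup.out_eq' q]
        change ((u * q.out : G) : G ⧸ K) = ((q.out : G) : G ⧸ K)
        rw [QuotientGroup.eq]
        have h3 : (u * q.out)⁻¹ * q.out = q.out⁻¹ * u⁻¹ * (q.out⁻¹)⁻¹ := by group
        rw [h3]
        exact ‹K.Normal›.conj_mem _ (K.inv_mem hu) _
      rw [h2]
      have := hinv q.out⁻¹ u hu
      rwa [inv_inv] at this
    simp only [hF, h1, Finset.sum_const, Finset.card_univ, nsmul_eq_mul]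
  have hc : F ((a * b * a⁻¹ * b⁻¹) ^ n) = 0 := by
    rw [hpow, hmul, hmul, hmul, hinv', hinv']
    ring
  rw [hK _ hn] at hc
  have hpos : (0 : ℝ) < Fintype.card (G ⧸ K) := by
    exact_mod_cast Fintype.card_pos
  exact (mul_eq_zero.1 hc).resolve_left hpos.ne'

end Transfer

section Virtual

variable {Γ Δ X : Type*} [Group Γ] [Group Δ] [MulAction Δ X] {d : X → X → ℝ}
variable (K : Subgroup Γ) [K.Normal] [K.FiniteIndex] (f : K →* Δ)

/-- the pairing of the conjugates -/
noncomputable def G (d : X → X → ℝ) (t : Γ) (u v : K) : ℝ :=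
  Qf d (f (MulAut.conjNormal t u)) (f (MulAut.conjNormal t v))

lemma G_left (h : SSAct Δ X d) (n : K) (t : Γ) (u v : K) :
    G K f d ((n : Γ) * t) u v = G K f d t u v := by
  have e : ∀ w : K, MulAut.conjNormal ((n : Γ) * t) w = n * MulAut.conjNormal t w * n⁻¹ := by
    intro w
    apply Subtype.ext
    simp only [MulAut.conjNormal_apply, Subgroup.coe_mul, Subgroup.coe_inv, mul_inv_rev]
    group
  unfold G
  rw [e, e, map_mul, map_mul, map_mul, map_mul, map_inv, Qf_conj h]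

lemma G_eq (h : SSAct Δ X d) {s t : Γ} (hst : (s : Γ ⧸ K) = t) (u v : K) :
    G K f d s u v = G K f d t u v := by
  have h1 : s * t⁻¹ ∈ K := by
    have h2 := QuotientGroup.eq.1 hst
    have h3 := ‹K.Normal›.conj_mem _ (K.inv_mem h2) s
    have h4 : s * (s⁻¹ * t)⁻¹ * s⁻¹ = s * t⁻¹ := by group
    rwa [h4] at h3
  have h5 := G_left K f h ⟨s * t⁻¹, h1⟩ t u v
  simpa using h5

open scoped Classical in
/-- the sum of the pairings of the conjugates -/
noncomputable def PP (d : X → X → ℝ) (u v : K) : ℝ :=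
  ∑ᶠ q : Γ ⧸ K, G K f d q.out u v

lemma PP_conj (h : SSAct Δ X d) (s : Γ) (u v : K) :
    PP K f d (MulAut.conjNormal s u) (MulAut.conjNormal s v) = PP K f d u v := by
  unfold PP
  have h1 : ∀ q : Γ ⧸ K, G K f d q.out (MulAut.conjNormal s u) (MulAut.conjNormal s v) =
      G K f d (q * (s : Γ ⧸ K)).out u v := by
    intro q
    have h2 : G K f d q.out (MulAut.conjNormal s u) (MulAut.conjNormal s v) =
        G K f d (q.out * s) u v := by
      unfold G
      rw [map_mul]
      rfl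
    rw [h2]
    apply G_eq K f h
    rw [QuotientGroup.out_eq', QuotientGroup.mk_mul, QuotientGroup.out_eq']
  simp only [h1]
  exact finsum_comp_equiv (Equiv.mulRight (s : Γ ⧸ K)) (f := fun q => G K f d q.out u v)

lemma PP_mul (h : SSAct Δ X d) [Nonempty X] {g u v : K} (hu : Commute g u) (hv : Commute g v) :
    PP K f d g (u * v) = PP K f d g u + PP K f d g v := by
  unfold PP
  rw [← finsum_add_distrib (Set.toFinite _) (Set.toFinite _)]
  apply finsum_congr
  intro q
  unfold G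
  rw [map_mul, map_mul]
  exact Qf_mul h ((hu.map (MulAut.conjNormal q.out)).map f)
    ((hv.map (MulAut.conjNormal q.out)).map f)

lemma PP_comm {g u : K} (hu : Commute g u) : PP K f d g u = PP K f d u g := by
  unfold PP
  apply finsum_congr
  intro q
  exact Qf_comm ((hu.map (MulAut.conjNormal q.out)).map f)

lemma PP_self (h : SSAct Δ X d) [Nonempty X] {g : K} (hg : PP K f d g g = 0) (q : Γ ⧸ K) :
    tau d (f (MulAut.conjNormal q.out g)) = 0 := by
  unfold PP at hg
  have h1 : ∀ q : Γ ⧸ K, G K f d q.out g g = 2 * tau d (f (MulAut.conjNormal q.out g)) ^ 2 :=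
    fun q => Qf_self h _
  have : Fintype (Γ ⧸ K) := Fintype.ofFinite _
  rw [finsum_eq_sum_of_fintype] at hg
  have h2 := (Finset.sum_eq_zero_iff_of_nonneg (fun q _ => by simp only [h1]; positivity)).1 hg
  have h3 := h2 q (Finset.mem_univ q)
  simp only [h1] at h3
  have h4 : tau d (f (MulAut.conjNormal q.out g)) ^ 2 = 0 := by linarith
  exact pow_eq_zero_iff (two_ne_zero) |>.1 h4

/-- the power of exponent the index, as an element of the subgroup -/
noncomputable def pw (c : Γ) : K := ⟨c ^ K.index, K.pow_index_mem c⟩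

lemma pw_commute {g c : Γ} (h : Commute g c) : Commute (pw K g) (pw K c) := by
  apply Subtype.ext
  simp only [Subgroup.coe_mul, pw]
  exact (h.pow_pow _ _).eq

open scoped Classical in
/-- the pairing with a fixed element, as a function on the centraliser -/
noncomputable def bet (d : X → X → ℝ) (w : K) (Z : Subgroup Γ) (x : Z) : ℝ :=
  if hx : (x : Γ) ∈ K then PP K f d w ⟨x, hx⟩ else 0

lemma bet_eq (w : K) (Z : Subgroup Γ) (x : Z) (u : K) (hx : (x : Γ) = u) :
    bet K f d w Z x = PP K f d w u := by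
  have hx' : (x : Γ) ∈ K := hx ▸ u.2
  unfold bet
  rw [dif_pos hx']
  congr 1
  exact Subtype.ext hx

/-- the power of `g` is orthogonal to the power of the commutator of `a`, `b` -/
lemma PP_comm_zero (h : SSAct Δ X d) [Nonempty X] {g a b : Γ} (ha : Commute g a)
    (hb : Commute g b) (w : K) (m : ℕ) (hw : (w : Γ) = g ^ m) :
    PP K f d w (pw K (a * b * a⁻¹ * b⁻¹)) = 0 := by
  obtain ⟨Z, hZmem⟩ : ∃ Z : Subgroup Γ, ∀ x : Γ, x ∈ Z ↔ Commute g x := by
    refine ⟨Subgroup.centralizer ({g} : Set Γ), fun x => ?_⟩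
    rw [Subgroup.mem_centralizer_singleton_iff]
    exact ⟨fun h => h.symm, fun h => h.symm⟩
  have hcomm : ∀ (x : Γ) (u : K), x ∈ Z → x = u → Commute w u := by
    intro x u hx hu
    apply Subtype.ext
    rw [Subgroup.coe_mul, Subgroup.coe_mul, hw, ← hu]
    exact (((hZmem x).1 hx).pow_left _).eq
  have k1 : ∀ u v : Z, u ∈ K.subgroupOf Z → v ∈ K.subgroupOf Z →
      bet K f d w Z (u * v) = bet K f d w Z u + bet K f d w Z v := by
    intro u v hu hv
    rw [Subgroup.mem_subgroupOf] at hu hv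
    rw [bet_eq K f w Z u ⟨u, hu⟩ rfl, bet_eq K f w Z v ⟨v, hv⟩ rfl,
      bet_eq K f w Z (u * v) (⟨u, hu⟩ * ⟨v, hv⟩) rfl]
    exact PP_mul K f h (hcomm u _ u.2 rfl) (hcomm v _ v.2 rfl)
  have k2 : ∀ s u : Z, u ∈ K.subgroupOf Z → bet K f d w Z (s * u * s⁻¹) = bet K f d w Z u := by
    intro s u hu
    rw [Subgroup.mem_subgroupOf] at hu
    have h1 : Commute (s : Γ) (w : Γ) := by
      rw [hw]
      exact (((hZmem s).1 s.2).symm).pow_right _
    have h2 : MulAut.conjNormal (s : Γ) w = w := by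
      apply Subtype.ext
      rw [MulAut.conjNormal_apply, h1.eq, mul_inv_cancel_right]
    have h4 := PP_conj K f h (s : Γ) w ⟨u, hu⟩
    rw [h2] at h4
    rw [bet_eq K f w Z u ⟨u, hu⟩ rfl,
      bet_eq K f w Z (s * u * s⁻¹) (MulAut.conjNormal (s : Γ) (⟨u, hu⟩ : K)) (by
        rw [MulAut.conjNormal_apply, Subgroup.coe_mul, Subgroup.coe_mul, Subgroup.coe_inv])]
    exact h4
  have e0 : (((⟨a, (hZmem a).2 ha⟩ * ⟨b, (hZmem b).2 hb⟩ * (⟨a, (hZmem a).2 ha⟩ : Z)⁻¹ *
      (⟨b, (hZmem b).2 hb⟩ : Z)⁻¹) ^ K.index : Z) : Γ) = (a * b * a⁻¹ * b⁻¹) ^ K.index := by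
    rw [Subgroup.coe_pow, Subgroup.coe_mul, Subgroup.coe_mul, Subgroup.coe_mul, Subgroup.coe_inv,
      Subgroup.coe_inv]
  have key := transfer_aux (K.subgroupOf Z) (bet K f d w Z) k1 k2 ⟨a, (hZmem a).2 ha⟩
    ⟨b, (hZmem b).2 hb⟩ (n := K.index) (by
      rw [Subgroup.mem_subgroupOf, e0]
      exact K.pow_index_mem _)
  rw [bet_eq K f w Z _ (pw K (a * b * a⁻¹ * b⁻¹)) e0] at key
  exact key

/-- **The virtual obstruction, normal case.** -/
theorem virt_normal (h : SSAct Δ X d) [Nonempty X]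
    (hfix : ∀ (δ : Δ) (x : X), d x (δ • x) = 0 → IsOfFinOrder δ) (hf : Function.Injective f)
    {z z' A₁ A₂ B₁ B₂ : Γ} (h1 : Commute z A₁) (h2 : Commute z A₂)
    (h3 : A₁ * A₂ * A₁⁻¹ * A₂⁻¹ = z') (h4 : Commute z' B₁) (h5 : Commute z' B₂)
    (h6 : B₁ * B₂ * B₁⁻¹ * B₂⁻¹ = z * z'⁻¹) (h7 : ∀ k : ℕ, 0 < k → z' ^ k ≠ 1) : False := by
  have hzz : Commute z z' := by
    rw [← h3]
    exact ((h1.mul_right h2).mul_right h1.inv_right).mul_right h2.inv_right
  have e1 := PP_comm_zero K f h h1 h2 (pw K z) K.index rfl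
  have e2 := PP_comm_zero K f h h4 h5 (pw K z') K.index rfl
  rw [h3] at e1
  rw [h6] at e2
  have e3 : pw K (z * z'⁻¹) = pw K z * (pw K z')⁻¹ := by
    apply Subtype.ext
    simp only [Subgroup.coe_mul, Subgroup.coe_inv, pw]
    rw [hzz.inv_right.mul_pow, inv_pow]
  have c1 : Commute (pw K z') (pw K z) := pw_commute K hzz.symm
  have c2 : Commute (pw K z') (pw K z')⁻¹ := (Commute.refl _).inv_right
  rw [e3, PP_mul K f h c1 c2, PP_comm K f c1, e1, zero_add] at e2
  have e4 : PP K f d (pw K z') (pw K z') = 0 := by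
    have e5 := PP_mul K f h (Commute.refl (pw K z')) c2
    have e6 := PP_mul K f h (Commute.one_right (pw K z')) (Commute.one_right (pw K z'))
    rw [mul_one] at e6
    rw [mul_inv_cancel] at e5
    linarith
  have e7 := PP_self K f h e4 (1 : Γ ⧸ K)
  set δ := f (MulAut.conjNormal (1 : Γ ⧸ K).out (pw K z')) with hδ
  obtain ⟨x₀, hx₀⟩ := h.exists_min δ
  have hord : IsOfFinOrder δ := hfix δ x₀ (hx₀.trans e7)
  obtain ⟨m, hm, hm1⟩ := isOfFinOrder_iff_pow_eq_one.1 hord
  rw [hδ, ← map_pow, ← map_pow] at hm1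
  have hm2 := hf (hm1.trans (map_one f).symm)
  have hm3 : (pw K z') ^ m = 1 := by
    apply (MulAut.conjNormal (1 : Γ ⧸ K).out).injective
    rw [hm2, map_one]
  have hm4 := congrArg (fun w : K => (w : Γ)) hm3
  simp only [Subgroup.coe_pow, Subgroup.coe_one, pw, ← pow_mul] at hm4
  exact h7 _ (Nat.mul_pos (Nat.pos_of_ne_zero Subgroup.FiniteIndex.index_ne_zero) hm) hm4

end Virtual

/-- **The virtual obstruction.**  If a group `Γ` contains elements satisfying the relations of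
the starting point, with `z'` of infinite order, then no subgroup of finite index of `Γ` embeds in
a group which acts by semisimple isometries on a space satisfying the Bruhat-Tits inequality, such
that elements with a fixed point have finite order. -/
theorem virt {Γ Δ X : Type*} [Group Γ] [Group Δ] [MulAction Δ X] {d : X → X → ℝ}
    (h : SSAct Δ X d) [Nonempty X] (hfix : ∀ (δ : Δ) (x : X), d x (δ • x) = 0 → IsOfFinOrder δ)
    (H : Subgroup Γ) [H.FiniteIndex] (f : H →* Δ) (hf : Function.Injective f)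
    {z z' A₁ A₂ B₁ B₂ : Γ} (h1 : Commute z A₁) (h2 : Commute z A₂)
    (h3 : A₁ * A₂ * A₁⁻¹ * A₂⁻¹ = z') (h4 : Commute z' B₁) (h5 : Commute z' B₂)
    (h6 : B₁ * B₂ * B₁⁻¹ * B₂⁻¹ = z * z'⁻¹) (h7 : ∀ k : ℕ, 0 < k → z' ^ k ≠ 1) : False :=
  virt_normal H.normalCore (f.comp (Subgroup.inclusion H.normalCore_le)) h hfix
    (hf.comp (Subgroup.inclusion_injective _)) h1 h2 h3 h4 h5 h6 h7

/-- The same for a semisimple action of the subgroup itself. -/
theorem virt_act {Γ X : Type*} [Group Γ] (H : Subgroup Γ) [H.FiniteIndex] [MulAction H X]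
    {d : X → X → ℝ} (h : SSAct H X d) [Nonempty X]
    (hfix : ∀ (k : H) (x : X), d x (k • x) = 0 → IsOfFinOrder k)
    {z z' A₁ A₂ B₁ B₂ : Γ} (h1 : Commute z A₁) (h2 : Commute z A₂)
    (h3 : A₁ * A₂ * A₁⁻¹ * A₂⁻¹ = z') (h4 : Commute z' B₁) (h5 : Commute z' B₂)
    (h6 : B₁ * B₂ * B₁⁻¹ * B₂⁻¹ = z * z'⁻¹) (h7 : ∀ k : ℕ, 0 < k → z' ^ k ≠ 1) : False :=
  virt h hfix H (MonoidHom.id H) Function.injective_id h1 h2 h3 h4 h5 h6 h7

end Vale.Agent.P255.H35.S
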